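import Vale.Agent.P241GZ.Top

/-!
# P241: the chromatic Smith problem for genuine `G`-spectra

Genuine `G`-spectra are orthogonal `G`-spectra localized at the `π_*^H`-isomorphisms, finite
`p`-local genuine `G`-spectra are the compact objects of the category of `p`-local ones, and the
geometric fixed points are `(Φ^H X)_n = X (n ρ_H)^H`. For every prime `p`, every finite `p`-group
`G`, every `H ≤ G` and every `n` the chromatic fixed point loss is `r_n(G, H) = ℓ(G, H)`.
-/

open CategoryTheory Limits

namespace Vale.Agent.Results.P241.AAAAAGenuine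

open Vale.Agent.P241GX Vale.Agent.P241L
open Vale.Agent.P241Y (ell)

theorem result :
    (∀ (G : Type) [Group G] [Finite G], Nonempty (Preadditive (Ho G)) ∧
      (∀ [Preadditive (Ho G)] p, HasCoproducts.{0} (Pl G p)) ∧
      ∀ (H : Subgroup G) X, ∃ Y, IsPhi H X Y) ∧
    (∃ T : SM, Nonempty (IsSH T)) ∧
    ∀ (T : SM) (I : IsSH T) (p : ℕ), p.Prime → (∃ K : ℕ → Rg T, ∀ i, Morava p i (K i)) ∧
      ∀ K : ℕ → Rg T, (∀ i, Morava p i (K i)) →
        ∀ (G : Type) [Group G] [Finite G] [Preadditive (Ho G)], IsPGroup p G →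
          ∀ (H : Subgroup G) n, loss H p I K n = ell H ∧
            ∀ r, P241GX.Force H p I K n r ↔ ell H ≤ r :=
  P241GZ.target

end Vale.Agent.Results.P241.AAAAAGenuine
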